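import Vale.Agent.P090.Core

/-!
P090: a countable uniformly discrete metric space whose Lipschitz-free space fails the bounded
approximation property.
-/

namespace Vale.Agent.Results.P090.FreeBAPFails

open Vale.Agent.P090

theorem result : ∃ (M : Type) (_ : MetricSpace M) (o : M), Countable M ∧
    (∃ c : ℝ, 0 < c ∧ ∀ x y : M, x ≠ y → c ≤ dist x y) ∧ ¬ HasBAP (Free o) := by
  refine ⟨Space, inferInstance, ⟨0, Sum.inr 1⟩, inferInstance,
    ⟨1, one_pos, fun x y h => space_separated h⟩, fun h => ?_⟩
  obtain ⟨k, ⟨op⟩⟩ := exists_op _ h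
  exact no_op k op

end Vale.Agent.Results.P090.FreeBAPFails
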